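import Vale.Agent.P216.B7893.D
import Vale.Agent.P216.H971Z.Frame
import Vale.Agent.P216.H808.Z10Props

/-!
# P216-B7, Z10: `G2Goal` (frame of helper971) and `DGoal` (frame of helper808)
-/

set_option linter.all false

open Set Filter Topology BoundedContinuousFunction

namespace Vale.Agent.P216.B7893

open Vale.Agent.P216.B7 Vale.Agent.P216.PS

variable {M : Type} [MetricSpace M] [CompactSpace M] {h : C(M, Circle)} {p p' : M × ℝ} {t : ℝ}

/-- A Lipschitz curve of a compact space, as a bounded continuous function. -/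
noncomputable def bcf (w : ℝ → M) (hw : ∀ u v, dist (w u) (w v) ≤ |u - v|) : ℝ →ᵇ M :=
  BoundedContinuousFunction.mkOfBound ⟨w, Metric.continuous_iff.2 fun u ε hε =>
    ⟨ε, hε, fun v hv => (hw v u).trans_lt hv⟩⟩ (Metric.diam (univ : Set M)) fun u v =>
      Metric.dist_le_diam_of_mem isCompact_univ.isBounded (mem_univ _) (mem_univ _)

theorem nonempty_PZ (H : Rc h p p' t) : (H971Z.PZ h p p' t).Nonempty := by
  obtain ⟨w, θ, h1, h2, h3, h4, h5, h6, h7⟩ := H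
  exact ⟨bcf w h1, ⟨h1, h2, h3⟩, θ, h4, h5, h6, h7⟩

/-- **(G2)** -/
theorem g2Goal {ρ : ℝ} (hρ : 0 < ρ) (hU : LS.UniqSeg M ρ) (h : C(M, Circle))
    (hc : ConnectedSpace (Xt h)) : H971Z.G2Goal M h := by
  intro R
  obtain ⟨m, -, hm⟩ := exists_Rc_Slb hρ hU hc R
  exact ⟨m, m.cast_nonneg, fun p hp p' hp' => nonempty_PZ (hm p hp p' hp')⟩

/-- **(G2)**, simply connected coverings. -/
theorem g2Goal' {ρ : ℝ} (hρ : 0 < ρ) (hU : LS.UniqSeg M ρ) (h : C(M, Circle))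
    (hc : SimplyConnectedSpace (Xt h)) : H971Z.G2Goal M h :=
  g2Goal hρ hU h inferInstance

/-- **D** of `H808/Z10Props.lean`. -/
theorem dGoal (hA : H808.AGoal) : H808.DGoal := by
  intro M _ _ ρ hρ hU h hs R
  obtain ⟨m, hm1, hm⟩ := exists_Rc_Slb hρ hU (h := h) inferInstance R
  refine ⟨m, hm1, fun b hb v hv => ?_⟩
  obtain ⟨w, θ, h1, h2, h3, h4, h5, h6, h7⟩ := hm v hv b hb
  have hw : bcf w h1 ∈ H456.PF b.1 m := by
    refine ⟨h1, fun u hu => ?_, h3⟩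
    show w u = w 0
    rw [h2 u hu, h2 0 le_rfl]
  refine ⟨bcf w h1, hw, ?_⟩
  rw [(hA M h b hb.1 m m.cast_nonneg).2.1 _ hw θ ⟨h4, h5, m, h7⟩]
  show (w 0, θ 0) = v
  rw [h2 0 le_rfl, h6 0 le_rfl]

end Vale.Agent.P216.B7893
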