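import Vale.Agent.P216.H799.Taut
import Vale.Agent.P216.H787.Cls

/-!
# Mayer-Vietoris gluing for list cochains on compact sets
-/

set_option linter.all false

open Set Finsupp

namespace Vale.Agent.P216.B7893

open Vale.Agent.P216.Sl Vale.Agent.P216.AS Vale.Agent.P216.PS

variable {E : Type} [MetricSpace E] {k : Type} [Field k] {A B : Set E}

/-- A cocycle of `A ∪ B` which vanishes on the small lists of `A` and of `B` is a coboundary. -/
theorem exL_of_van (hA : IsCompact A) (hB : IsCompact B) {m : ℕ} {f : List E → k}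
    (hf : CocL (A ∪ B) (m + 1) f)
    (ha : ∃ ε > 0, ∀ l, l.length = m + 2 → SmL A ε l → f l = 0)
    (hb : ∃ ε > 0, ∀ l, l.length = m + 2 → SmL B ε l → f l = 0) : ExL (A ∪ B) (m + 1) f := by
  classical
  let a : Empty → E → E := fun i => i.elim
  let χ : Empty → k := fun i => i.elim
  obtain ⟨ε, hε, hf⟩ := hf
  obtain ⟨ε₁, hε₁, ha⟩ := ha
  obtain ⟨ε₂, hε₂, hb⟩ := hb
  have hmem : ofL (m + 2) f ∈ Zc (Zr a χ (A ∪ B) A ⊓ Zr a χ (A ∪ B) B)
      (Zr a χ (A ∪ B) (A ∪ B)) (m + 1) := by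
    refine ⟨⟨⟨H799.eqv0 _ _ _ _, ε₁, hε₁, fun x hx => ?_⟩,
      ⟨H799.eqv0 _ _ _ _, ε₂, hε₂, fun x hx => ?_⟩⟩, H799.eqv0 _ _ _ _, ε, hε, fun x hx => ?_⟩
    · exact ha _ List.length_ofFn (smL_ofFn.2 hx)
    · exact hb _ List.length_ofFn (smL_ofFn.2 hx)
    · change P265.AS.d (ofL (m + 2) f) x = 0
      rw [dl_ofL]
      exact hf _ List.length_ofFn (smL_ofFn.2 hx)
  have h := H799.mv_acyclic_mem hA hB subset_union_left subset_union_right hmem
  rw [mem_Bc_succ] at h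
  obtain ⟨y, -, -, δ, hδ, h1⟩ := h
  refine ⟨toL y, fun h0 => absurd h0 (Nat.succ_ne_zero m), δ, hδ, fun l hl hs => ?_⟩
  obtain ⟨x, rfl⟩ := exists_ofFn hl
  have h2 := h1 x (smL_ofFn.1 hs)
  have h3 : ofL (m + 2) f x - P265.AS.d y x = 0 := h2
  rw [← toL_d, toL_ofFn, ← sub_eq_zero]
  exact h3

/-- **Mayer-Vietoris gluing.** -/
theorem exL_glue (hA : IsCompact A) (hB : IsCompact B) {m : ℕ} {f a b : List E → k}
    (hf : CocL (A ∪ B) (m + 1) f)
    (ha : ∃ ε > 0, ∀ l, l.length = m + 2 → SmL A ε l → f l = dl a l)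
    (hb : ∃ ε > 0, ∀ l, l.length = m + 2 → SmL B ε l → f l = dl b l)
    (hab : ExL (A ∩ B) m (fun l => a l - b l)) : ExL (A ∪ B) (m + 1) f := by
  classical
  obtain ⟨ε₁, hε₁, ha⟩ := ha
  obtain ⟨ε₂, hε₂, hb⟩ := hb
  obtain ⟨c, hc0, ε₃, hε₃, hc⟩ := hab
  let b' : List E → k := fun l => b l + dl c l
  let u : List E → k := fun l => if ∀ x ∈ l, x ∈ A then a l else b' l
  have hb' : ∀ l, dl b' l = dl b l := fun l => by
    have h1 : dl b' l = dl b l + dl (dl c) l := Sl.dl_add b (dl c) l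
    rw [h1, dl_dl, add_zero]
  have huA : ∀ l : List E, (∀ x ∈ l, x ∈ A) → dl u l = dl a l := fun l hl =>
    dl_congr fun l' _ h => if_pos fun x hx => hl x (h x hx)
  have huB : ∀ l : List E, l.length = m + 2 → SmL B ε₃ l → dl u l = dl b l := fun l hl hs => by
    rw [← hb' l]
    refine dl_congr fun l' hl' h => ?_
    by_cases h1 : ∀ x ∈ l', x ∈ A
    · have h2 : u l' = a l' := if_pos h1
      have h3 := hc l' (by omega) ⟨fun x hx => ⟨h1 x hx, hs.1 x (h x hx)⟩,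
        fun x hx y hy => hs.2 x (h x hx) y (h y hy)⟩
      rw [h2]
      change a l' = b l' + dl c l'
      rw [← h3]; ring
    · exact if_neg h1
  have hex : ExL (A ∪ B) (m + 1) fun l => f l - dl u l := by
    refine exL_of_van hA hB (hf.sub ⟨1, one_pos, fun l _ _ => dl_dl u l⟩)
      ⟨ε₁, hε₁, fun l hl hs => ?_⟩ ⟨min ε₂ ε₃, lt_min hε₂ hε₃, fun l hl hs => ?_⟩
    · rw [ha l hl hs, huA l hs.1, sub_self]
    · rw [hb l hl (hs.mono le_rfl (min_le_left _ _)), huB l hl (hs.mono le_rfl (min_le_right _ _)),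
        sub_self]
  obtain ⟨w, -, δ, hδ, hw⟩ := hex
  refine ⟨fun l => w l + u l, fun h0 => absurd h0 (Nat.succ_ne_zero m), δ, hδ, fun l hl hs => ?_⟩
  have h : f l - dl u l = dl w l := hw l hl hs
  have h1 : dl (fun l => w l + u l) l = dl w l + dl u l := Sl.dl_add w u l
  rw [h1, ← h]; ring

end Vale.Agent.P216.B7893
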