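import Vale.Agent.P216.B7.Props
import Vale.Agent.P216.LS.Milnor

/-!
# P216-B7, Z10: short paths in the cyclic covering
-/

set_option linter.all false

open Set Filter Topology

namespace Vale.Agent.P216.B7893

open Vale.Agent.P216.B7

variable {M : Type} [MetricSpace M]

theorem ex_add (a b : ℝ) : ex (a + b) = ex a * ex b := by
  unfold ex
  rw [mul_add, Circle.exp_add]

theorem continuous_ex : Continuous ex := by
  unfold ex
  fun_prop

theorem ex_inj {a b : ℝ} (h : ex a = ex b) (hab : |a - b| < 1) : a = b := by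
  unfold ex at h
  rw [Circle.exp_eq_exp] at h
  obtain ⟨m, hm⟩ := h
  have hpi : (0 : ℝ) < 2 * Real.pi := by positivity
  have h1 : a - b = m := by
    have : 2 * Real.pi * (a - b) = 2 * Real.pi * m := by linarith
    exact mul_left_cancel₀ hpi.ne' this
  rw [h1] at hab
  have h2 : m = 0 := by
    have : |m| < 1 := by exact_mod_cast hab
    exact Int.abs_lt_one_iff.1 this
  rw [h2] at h1
  simp at h1
  linarith

/-- The angle from `z` to `z'` -/
noncomputable def ang (z z' : Circle) : ℝ := Complex.arg ((z' / z : Circle) : ℂ) / (2 * Real.pi)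

theorem ex_ang (z z' : Circle) : ex (ang z z') = z' / z := by
  unfold ex ang
  rw [mul_div_cancel₀ _ (by positivity : (2 * Real.pi) ≠ 0)]
  exact Circle.exp_arg _

theorem ang_self (z : Circle) : ang z z = 0 := by
  unfold ang
  simp

theorem re_pos {z z' : Circle} (h : dist z z' < 1) : 0 < ((z' / z : Circle) : ℂ).re := by
  have h1 : ‖((z' / z : Circle) : ℂ) - 1‖ < 1 := by
    have h2 : ((z' / z : Circle) : ℂ) - 1 = ((z' : ℂ) - z) / z := by
      rw [Circle.coe_div, sub_div, div_self (Circle.coe_ne_zero z)]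
    rw [h2, norm_div, Circle.norm_coe, div_one]
    have h3 : dist z z' = ‖(z : ℂ) - z'‖ := by
      rw [← dist_eq_norm]
      rfl
    rw [norm_sub_rev, ← h3]
    exact h
  have h4 := (Complex.abs_re_le_norm (((z' / z : Circle) : ℂ) - 1)).trans_lt h1
  rw [Complex.sub_re, Complex.one_re, abs_lt] at h4
  linarith [h4.1]

theorem abs_ang_lt {z z' : Circle} (h : dist z z' < 1) : |ang z z'| < 1 / 4 := by
  have h1 := Complex.abs_arg_lt_pi_div_two_iff.2 (Or.inl (re_pos h))
  unfold ang
  have hpi := Real.pi_pos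
  rw [abs_div, abs_of_pos (by positivity : (0 : ℝ) < 2 * Real.pi), div_lt_iff₀ (by positivity)]
  linarith

theorem continuousAt_ang {z z' : Circle} (h : dist z z' < 1) : ContinuousAt (ang z) z' := by
  unfold ang
  refine ContinuousAt.div_const ?_ _
  refine ContinuousAt.comp (g := Complex.arg) (f := fun z' : Circle => ((z' / z : Circle) : ℂ)) ?_ ?_
  · exact Complex.continuousAt_arg (Or.inl (re_pos h))
  · have : Continuous fun z' : Circle => ((z' / z : Circle) : ℂ) := by
      simp only [Circle.coe_div]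
      exact (continuous_induced_dom : Continuous ((↑) : Circle → ℂ)).div_const _
    exact this.continuousAt

/-- There is a path of duration `t` from `p` to `p'` in the covering. -/
def Rc (h : C(M, Circle)) (p p' : M × ℝ) (t : ℝ) : Prop :=
  ∃ (w : ℝ → M) (θ : ℝ → ℝ), (∀ u v, dist (w u) (w v) ≤ |u - v|) ∧ (∀ u, u ≤ 0 → w u = p.1) ∧
    (∀ u, t ≤ u → w u = p'.1) ∧ Continuous θ ∧ (∀ u, h (w u) = ex (θ u)) ∧
    (∀ u, u ≤ 0 → θ u = p.2) ∧ ∀ u, t ≤ u → θ u = p'.2

variable {h : C(M, Circle)} {p p' p'' : M × ℝ} {t t' : ℝ}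

theorem Rc.mono (H : Rc h p p' t) (ht : t ≤ t') : Rc h p p' t' := by
  obtain ⟨w, θ, h1, h2, h3, h4, h5, h6, h7⟩ := H
  exact ⟨w, θ, h1, h2, fun u hu => h3 u (ht.trans hu), h4, h5, h6, fun u hu => h7 u (ht.trans hu)⟩

theorem Rc.symm (H : Rc h p p' t) : Rc h p' p t := by
  obtain ⟨w, θ, h1, h2, h3, h4, h5, h6, h7⟩ := H
  refine ⟨fun u => w (t - u), fun u => θ (t - u), fun u v => ?_, fun u hu => h3 _ (by linarith),
    fun u hu => h2 _ (by linarith), h4.comp (by fun_prop), fun u => h5 _,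
    fun u hu => h7 _ (by linarith), fun u hu => h6 _ (by linarith)⟩
  refine (h1 _ _).trans (le_of_eq ?_)
  rw [← abs_neg]
  congr 1
  ring

theorem Rc.trans (H : Rc h p p' t) (H' : Rc h p' p'' t') (ht : 0 ≤ t) (ht' : 0 ≤ t') :
    Rc h p p'' (t + t') := by
  obtain ⟨w, θ, h1, h2, h3, h4, h5, h6, h7⟩ := H
  obtain ⟨w', θ', h1', h2', h3', h4', h5', h6', h7'⟩ := H'
  refine ⟨fun u => if u ≤ t then w u else w' (u - t), fun u => if u ≤ t then θ u else θ' (u - t),
    fun u v => ?_, fun u hu => ?_, fun u hu => ?_, ?_, fun u => ?_, fun u hu => ?_,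
    fun u hu => ?_⟩
  · have key : ∀ u v : ℝ, u ≤ v → dist (if u ≤ t then w u else w' (u - t))
        (if v ≤ t then w v else w' (v - t)) ≤ v - u := by
      intro u v huv
      by_cases hv : v ≤ t
      · rw [if_pos hv, if_pos (huv.trans hv)]
        have := h1 u v
        rwa [abs_sub_comm, abs_of_nonneg (sub_nonneg.2 huv)] at this
      · rw [if_neg hv]
        push Not at hv
        by_cases hu : u ≤ t
        · rw [if_pos hu]
          have e1 := h1 u t
          have e2 := h1' 0 (v - t)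
          rw [h3 t le_rfl] at e1
          rw [h2' 0 le_rfl] at e2
          rw [abs_sub_comm, abs_of_nonneg (sub_nonneg.2 hu)] at e1
          rw [abs_sub_comm, sub_zero, abs_of_nonneg (by linarith)] at e2
          have := dist_triangle (w u) p'.1 (w' (v - t))
          linarith
        · rw [if_neg hu]
          have e2 := h1' (u - t) (v - t)
          rw [abs_sub_comm, abs_of_nonneg (by linarith)] at e2
          linarith
    rcases le_total u v with huv | huv
    · have := key u v huv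
      rwa [abs_sub_comm, abs_of_nonneg (sub_nonneg.2 huv)]
    · have := key v u huv
      rwa [dist_comm, abs_of_nonneg (sub_nonneg.2 huv)]
  · show (if u ≤ t then w u else w' (u - t)) = p.1
    rw [if_pos (hu.trans ht)]
    exact h2 u hu
  · show (if u ≤ t then w u else w' (u - t)) = p''.1
    by_cases h0 : u ≤ t
    · have h8 : t' = 0 := by linarith
      rw [if_pos h0]
      have h9 : t ≤ u := by linarith
      rw [h3 u h9, ← h2' 0 le_rfl, h3' 0 h8.le]
    · rw [if_neg h0]
      exact h3' _ (by linarith)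
  · refine Continuous.if_le h4 (h4'.comp (by fun_prop)) continuous_id continuous_const ?_
    intro u hu
    rw [hu, sub_self, h7 t le_rfl, h6' 0 le_rfl]
  · show h (if u ≤ t then w u else w' (u - t)) = ex (if u ≤ t then θ u else θ' (u - t))
    split_ifs
    · exact h5 u
    · exact h5' _
  · show (if u ≤ t then θ u else θ' (u - t)) = p.2
    rw [if_pos (hu.trans ht)]
    exact h6 u hu
  · show (if u ≤ t then θ u else θ' (u - t)) = p''.2
    by_cases h0 : u ≤ t
    · have h8 : t' = 0 := by linarith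
      rw [if_pos h0]
      have h9 : t ≤ u := by linarith
      rw [h7 u h9, ← h6' 0 le_rfl, h7' 0 h8.le]
    · rw [if_neg h0]
      exact h7' _ (by linarith)

/-- Near points of the covering are joined. -/
theorem exists_near [CompactSpace M] {ρ : ℝ} (hρ : 0 < ρ) (hU : LS.UniqSeg M ρ)
    (h : C(M, Circle)) : ∃ δ > 0, ∀ p ∈ Xt h, ∀ p' ∈ Xt h, dist p p' < δ → Rc h p p' 1 := by
  obtain ⟨δ₁, hδ₁, h1⟩ := Metric.uniformContinuous_iff.1
    (CompactSpace.uniformContinuous_of_continuous h.continuous) 1 one_pos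
  refine ⟨min (min δ₁ ρ) (1 / 4), by positivity, fun p hp p' hp' hd => ?_⟩
  have hd1 : dist p.1 p'.1 < min (min δ₁ ρ) (1 / 4) := (le_max_left _ _).trans_lt hd
  have hd2 : dist p.2 p'.2 < min (min δ₁ ρ) (1 / 4) := (le_max_right _ _).trans_lt hd
  have a1 : dist p.1 p'.1 < δ₁ := hd1.trans_le ((min_le_left _ _).trans (min_le_left _ _))
  have a2 : dist p.1 p'.1 < ρ := hd1.trans_le ((min_le_left _ _).trans (min_le_right _ _))
  have a3 : dist p.1 p'.1 < 1 / 4 := hd1.trans_le (min_le_right _ _)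
  have a4 : dist p.2 p'.2 < 1 / 4 := hd2.trans_le (min_le_right _ _)
  let c : ℝ → ℝ := fun u => (projIcc (0 : ℝ) 1 zero_le_one u : ℝ)
  have hc : ∀ u, c u ∈ Icc (0 : ℝ) 1 := fun u => (projIcc (0 : ℝ) 1 zero_le_one u).2
  have hcl : ∀ u v, |c u - c v| ≤ |u - v| := fun u v => by
    have := (LipschitzWith.projIcc (zero_le_one' ℝ)).dist_le_mul u v
    rwa [NNReal.coe_one, one_mul] at this
  have hcc : Continuous c := continuous_subtype_val.comp continuous_projIcc
  let w : ℝ → M := fun u => LS.seg p.1 p'.1 (c u)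
  have hw : ∀ u v, dist (w u) (w v) ≤ |u - v| := fun u v => by
    rw [LS.dist_seg_seg hU a2 (hc u) (hc v)]
    have := hcl u v
    have e := abs_nonneg (c u - c v)
    nlinarith [dist_nonneg (x := p.1) (y := p'.1)]
  have hwc : Continuous w := by
    refine Metric.continuous_iff.2 fun u ε hε => ⟨ε, hε, fun v hv => (hw v u).trans_lt hv⟩
  have hwd : ∀ u, dist p.1 (w u) < δ₁ := fun u => by
    rw [LS.dist_left_seg hU a2 (hc u)]
    have := (hc u).2
    have := (hc u).1
    nlinarith [dist_nonneg (x := p.1) (y := p'.1)]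
  have hhd : ∀ u, dist (h p.1) (h (w u)) < 1 := fun u => h1 (hwd u)
  let θ : ℝ → ℝ := fun u => p.2 + ang (h p.1) (h (w u))
  have hθ : ∀ u, h (w u) = ex (θ u) := fun u => by
    have hpx : h p.1 = ex p.2 := hp
    show _ = ex (p.2 + ang (h p.1) (h (w u)))
    rw [ex_add, ex_ang, ← hpx]
    simp
  have w0 : ∀ u, u ≤ 0 → w u = p.1 := fun u hu => by
    show LS.seg p.1 p'.1 (c u) = p.1
    have : c u = 0 := by
      show ((projIcc (0 : ℝ) 1 zero_le_one u : ℝ)) = 0
      rw [projIcc_of_le_left _ hu]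
    rw [this, LS.seg_zero]
  have w1 : ∀ u, 1 ≤ u → w u = p'.1 := fun u hu => by
    show LS.seg p.1 p'.1 (c u) = p'.1
    have : c u = 1 := by
      show ((projIcc (0 : ℝ) 1 zero_le_one u : ℝ)) = 1
      rw [projIcc_of_right_le _ hu]
    rw [this, LS.seg_one]
  refine ⟨w, θ, hw, w0, w1, ?_, hθ, fun u hu => ?_, fun u hu => ?_⟩
  · refine continuous_const.add (continuous_iff_continuousAt.2 fun u => ?_)
    exact ContinuousAt.comp (g := ang (h p.1)) (f := fun u => h (w u)) (continuousAt_ang (hhd u))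
      (h.continuous.comp hwc).continuousAt
  · show p.2 + ang (h p.1) (h (w u)) = p.2
    rw [w0 u hu, ang_self, add_zero]
  · refine ex_inj ?_ ?_
    · rw [← hθ, w1 u hu]
      exact hp'
    · have e1 := abs_ang_lt (hhd u)
      rw [Real.dist_eq] at a4
      show |p.2 + ang (h p.1) (h (w u)) - p'.2| < 1
      have e2 : p.2 + ang (h p.1) (h (w u)) - p'.2 = (p.2 - p'.2) + ang (h p.1) (h (w u)) := by
        ring
      rw [e2]
      have := abs_add_le (p.2 - p'.2) (ang (h p.1) (h (w u)))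
      linarith

theorem Rc.refl (hp : p ∈ Xt h) : Rc h p p 0 :=
  ⟨fun _ => p.1, fun _ => p.2, fun u v => by simp, fun _ _ => rfl, fun _ _ => rfl,
    continuous_const, fun _ => hp, fun _ _ => rfl, fun _ _ => rfl⟩

/-- Any two points of a path connected covering are joined. -/
theorem exists_Rc [CompactSpace M] {ρ : ℝ} (hρ : 0 < ρ) (hU : LS.UniqSeg M ρ)
    (hc : ConnectedSpace (Xt h)) (hp : p ∈ Xt h) (hp' : p' ∈ Xt h) :
    ∃ t, 0 ≤ t ∧ Rc h p p' t := by
  obtain ⟨δ, hδ, hn⟩ := exists_near hρ hU h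
  let S : Set (Xt h) := {q | ∃ t, 0 ≤ t ∧ Rc h p q.1 t}
  have hS : IsClopen S := by
    constructor
    · rw [← isOpen_compl_iff, Metric.isOpen_iff]
      intro q hq
      refine ⟨δ, hδ, fun q' hq' hS' => hq ?_⟩
      obtain ⟨t, ht, H⟩ := hS'
      exact ⟨t + 1, by linarith, H.trans (hn _ q'.2 _ q.2 hq') ht zero_le_one⟩
    · rw [Metric.isOpen_iff]
      rintro q ⟨t, ht, H⟩
      refine ⟨δ, hδ, fun q' hq' => ?_⟩
      refine ⟨t + 1, by linarith, H.trans (hn _ q.2 _ q'.2 ?_) ht zero_le_one⟩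
      rw [dist_comm]
      exact hq'
  have h1 : S = univ := hS.eq_univ ⟨⟨p, hp⟩, 0, le_rfl, Rc.refl hp⟩
  have h2 : (⟨p', hp'⟩ : Xt h) ∈ S := by rw [h1]; exact mem_univ _
  exact h2

theorem isClosed_Xt (h : C(M, Circle)) : IsClosed (Xt h) :=
  isClosed_eq (h.continuous.comp continuous_fst) (continuous_ex.comp continuous_snd)

theorem isCompact_Slb [CompactSpace M] (h : C(M, Circle)) (R : ℝ) : IsCompact (Slb h R) := by
  have h1 : Slb h R = Xt h ∩ ((univ : Set M) ×ˢ Icc (-R) R) := by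
    ext p
    simp only [Slb, mem_setOf_eq, mem_inter_iff, mem_prod, mem_univ, true_and, mem_Icc, abs_le]
  rw [h1]
  exact (isCompact_univ.prod isCompact_Icc).inter_left (isClosed_Xt h)

/-- **(G2)** Any two points of a slab are joined by a path of bounded duration. -/
theorem exists_Rc_Slb [CompactSpace M] {ρ : ℝ} (hρ : 0 < ρ) (hU : LS.UniqSeg M ρ)
    (hc : ConnectedSpace (Xt h)) (R : ℝ) :
    ∃ m : ℕ, 1 ≤ m ∧ ∀ p ∈ Slb h R, ∀ p' ∈ Slb h R, Rc h p p' m := by
  obtain ⟨δ, hδ, hn⟩ := exists_near hρ hU h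
  obtain ⟨o⟩ := hc.toNonempty
  obtain ⟨F, hF1, hF2, hF3⟩ := (isCompact_Slb h R).finite_cover_balls hδ
  have hx : ∀ q : M × ℝ, ∃ t : ℝ, 0 ≤ t ∧ (q ∈ Slb h R → Rc h o.1 q t) := by
    intro q
    by_cases hq : q ∈ Slb h R
    · obtain ⟨t, ht, H⟩ := exists_Rc hρ hU hc o.2 hq.1
      exact ⟨t, ht, fun _ => H⟩
    · exact ⟨0, le_rfl, fun h => absurd h hq⟩
  choose τ hτ0 hτ using hx
  obtain ⟨T, hT⟩ := (hF2.image τ).bddAbove
  obtain ⟨m, hm⟩ := exists_nat_ge (max T 0 + 1)
  have key : ∀ q ∈ Slb h R, Rc h o.1 q m := by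
    intro q hq
    obtain ⟨c, hcF, hqc⟩ := mem_iUnion₂.1 (hF3 hq)
    have h1 : Rc h o.1 c (τ c) := hτ c (hF1 hcF)
    have h2 := h1.trans (hn c (hF1 hcF).1 q hq.1 (by rw [dist_comm]; exact hqc)) (hτ0 c) zero_le_one
    have h3 : τ c ≤ T := hT ⟨c, hcF, rfl⟩
    exact h2.mono (by have := le_max_left T 0; linarith)
  refine ⟨m + m + 1, by omega, fun p hp p' hp' => ?_⟩
  have h1 := (key p hp).symm.trans (key p' hp') m.cast_nonneg m.cast_nonneg
  refine h1.mono ?_
  push_cast
  linarith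

end Vale.Agent.P216.B7893
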