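import Vale.Agent.P216.H971Z.Frame
import Vale.Agent.P216.H126Z.A
import Vale.Agent.P216.H923Z.Lift
import Vale.Agent.P216.H892.FibU

/-!
# P216-B7, Z10: over the base point the transport is homotopic to the identity
-/

set_option linter.all false

open Set Filter Topology BoundedContinuousFunction

namespace Vale.Agent.P216.B7893

open Vale.Agent.P216.Sl Vale.Agent.P216.PS Vale.Agent.P216.B7 Vale.Agent.P216.E2L
open Vale.Agent.P216.MV337 Vale.Agent.P216.C337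
open Vale.Agent.P216.H892 (CtgC)
open Vale.Agent.P216.H923E (UH Pt cg sg uh_conj uh_shift XL_singleton zero_mem_I one_mem_I)
open Vale.Agent.P216.H971Z (Lf PZ XZ stz)

variable {M : Type} [MetricSpace M] [CompactSpace M] {h : C(M, Circle)} {p p' : M × ℝ}
variable {R₁ ℓ₀ ℓ m t : ℝ}

/-- **The heights along a homotopy of paths with fixed ends.** -/
theorem UH.toPZ {I E : Type} [PseudoMetricSpace E] {Z : I → Set E} {T : I → ℝ}
    {P₀ P₁ : I → M × ℝ} {f g : I → E → ℝ →ᵇ M}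
    (H : UH Z (fun i => P (P₀ i).1 (P₁ i).1 (T i)) f g)
    (hf : ∀ i, ∀ w ∈ Z i, f i w ∈ PZ h (P₀ i) (P₁ i) (T i)) :
    UH Z (fun i => PZ h (P₀ i) (P₁ i) (T i)) f g := by
  obtain ⟨D, h1, h2, h3, h4, h5⟩ := H
  refine ⟨D, fun i s hs w hw => ?_, h2, h3, h4, h5⟩
  -- a path in `P`
  have hcont : ContinuousOn (fun s : ℝ => D i s w) (Icc (0:ℝ) 1) := by
    rw [Metric.continuousOn_iff]
    intro s hs ε hε
    obtain ⟨δ, hδ, h6⟩ := h5 i ε hε
    exact ⟨δ, hδ, fun s' hs' hd => h6 s' hs' s hs (by rwa [Real.dist_eq] at hd) w hw⟩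
  have hc1 : ContinuousOn (fun u : ℝ => D i (u * s) w) (Icc (0:ℝ) 1) := by
    refine hcont.comp (by fun_prop) fun u hu => ?_
    exact ⟨mul_nonneg hu.1 hs.1, mul_le_one₀ hu.2 hs.1 hs.2⟩
  have h0 : D i 0 w ∈ PZ h (P₀ i) (P₁ i) (T i) := by
    rw [h2 i hw]
    exact hf i w hw
  have hj : JoinedIn (P (P₀ i).1 (P₁ i).1 (T i)) (D i 0 w) (D i s w) := by
    refine ⟨⟨⟨fun u : unitInterval => D i (u * s) w, ?_⟩, ?_, ?_⟩, fun u => ?_⟩
    · exact hc1.comp_continuous continuous_subtype_val fun u => u.2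
    · show D i ((0 : unitInterval) * s) w = D i 0 w
      simp
    · show D i ((1 : unitInterval) * s) w = D i s w
      simp
    · exact h1 i _ ⟨mul_nonneg u.2.1 hs.1, mul_le_one₀ u.2.2 hs.1 hs.2⟩ hw
  exact (H126Z.joinedIn_PZ h h0 hj).target_mem

/-- conjugation by a loop which is joined to the constant -/
theorem uh_loop (g : M → M) (hg : ∀ x y, dist (g x) (g y) ≤ dist x y) (hm : 0 ≤ m) (ht : 0 ≤ t)
    {a : M} {f : ℝ → M} (hf : Pt m a a f)
    (hj : JoinedIn (P a a m) (mo fun _ => a) (mo f)) :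
    UH (fun _ : Unit => P a (g a) t) (fun _ => P a (g a) (t + (m + m)))
      (fun _ => id) fun _ => cg g m t f := by
  have h2 : Pt m a a fun _ => a := H923E.pt_const _ _
  have hγ : ∀ σ, Pt m a a (hj.somePath.extend σ) := fun σ =>
    Pt.of_P (hj.somePath_mem (projIcc 0 1 zero_le_one σ))
  have e := uh_conj (I := Unit) (D := fun _ => {a}) (V := fun _ => {a}) hg hm ht
    (fun _ σ _ => hj.somePath.extend σ) (fun _ σ _ b hb => by
      rw [mem_singleton_iff.1 hb]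
      exact ⟨a, rfl, hγ σ⟩) (fun ε hε => ⟨1, one_pos, fun _ σ _ b _ b' _ _ u => by
      rw [dist_self]; exact hε.le⟩) fun _ ε hε => by
      have hc : UniformContinuousOn hj.somePath.extend (Icc (0:ℝ) 1) :=
        isCompact_Icc.uniformContinuousOn_of_continuous
          hj.somePath.continuous_extend.continuousOn
      obtain ⟨δ, hδ, h⟩ := Metric.uniformContinuousOn_iff.1 hc ε hε
      refine ⟨δ, hδ, fun σ hσ σ' hσ' hd b _ u => ?_⟩
      exact (BoundedContinuousFunction.dist_coe_le_dist u).trans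
        (h σ hσ σ' hσ' (by rwa [Real.dist_eq])).le
  have e0 := uh_shift (I := Unit) (D := fun _ => {a}) hg hm ht
  simp only [XL_singleton] at e e0
  refine (e0.congr (fun _ _ _ => rfl) (g' := fun _ w => cg g m t (fun _ => a) w)
    fun _ w hw => ?_).trans (e.congr (fun _ w hw => ?_) fun _ w hw => ?_)
  · have h0 : w 0 = a := eq_left hw le_rfl
    show cg g m t (fun _ => w 0) w = _
    rw [h0]
  · show cg g m t (hj.somePath.extend 0) w = _
    rw [hj.somePath.extend_zero]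
    congr 1
    funext u
    exact h2.1.mo_apply u
  · show cg g m t (hj.somePath.extend 1) w = cg g m t f w
    rw [hj.somePath.extend_one]
    congr 1
    funext u
    exact hf.1.mo_apply u

/-- **(FX)** -/
theorem fx {ρ : ℝ} (hU : LS.UniqSeg M ρ) (hρ : 0 < ρ) {c : M × ℝ → ℝ → M} (hR₁ : 0 < R₁)
    (hℓ₀ : 0 ≤ ℓ₀) (hℓ : ℓ₀ ≤ ℓ) (hp : p ∈ Xt h) (hc : Pt ℓ₀ p.1 p.1 (c p))
    (hcl : Lf h ℓ₀ p.2 p.2 (c p))
    (h3 : ∀ v ∈ PZ h p p (R₁ + ℓ₀), ∀ v' ∈ PZ h p p (R₁ + ℓ₀), JoinedIn (PZ h p p (R₁ + ℓ)) v v') :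
    ∀ t > 0, ∀ r > 0, ∃ δ > 0, CtgC (PZ h p p' (t + (R₁ + ℓ + (R₁ + ℓ)))) (PZ h p p' t) δ r id
      (fun v => cg (fun _ => p'.1) (R₁ + ℓ) t (catf R₁ (sg R₁ (v 0) p.1) (c p)) v) := by
  intro t ht r hr
  have hm : 0 ≤ R₁ + ℓ := by linarith
  have hs : Pt R₁ p.1 p.1 (sg R₁ p.1 p.1) :=
    H923E.sg_pt hU hR₁ (by rw [dist_self]; exact hρ) (by rw [dist_self]; exact hR₁.le)
  have hf0 : Pt (R₁ + ℓ₀) p.1 p.1 (catf R₁ (sg R₁ p.1 p.1) (c p)) := hs.cat hc hR₁.le hℓ₀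
  have hf : Pt (R₁ + ℓ) p.1 p.1 (catf R₁ (sg R₁ p.1 p.1) (c p)) := hf0.le (by linarith)
  have h2 : Pt (R₁ + ℓ₀) p.1 p.1 fun _ => p.1 := H923E.pt_const _ _
  have hconst : Lf h R₁ p.2 p.2 (fun _ => p.1) :=
    ⟨fun _ => p.2, continuous_const, fun _ => hp, fun _ _ => rfl, fun _ _ => rfl⟩
  have l1 : Lf h (R₁ + ℓ₀) p.2 p.2 (catf R₁ (sg R₁ p.1 p.1) (c p)) := by
    refine H923Z.Lf.cat ?_ hcl hR₁.le hℓ₀
    rw [H923E.sg_self]
    exact hconst
  have l2 : Lf h (R₁ + ℓ₀) p.2 p.2 (fun _ => p.1) := hconst.mono (by linarith)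
  have m1 : mo (catf R₁ (sg R₁ p.1 p.1) (c p)) ∈ PZ h p p (R₁ + ℓ₀) := by
    refine ⟨Pt.mo hf0, ?_⟩
    have e : (mo (catf R₁ (sg R₁ p.1 p.1) (c p)) : ℝ → M) = catf R₁ (sg R₁ p.1 p.1) (c p) :=
      funext fun u => hf0.1.mo_apply u
    rw [e]
    exact l1
  have m2 : mo (fun _ => p.1) ∈ PZ h p p (R₁ + ℓ₀) := by
    refine ⟨Pt.mo h2, ?_⟩
    have e : (mo (fun _ => p.1) : ℝ → M) = fun _ => p.1 := funext fun u => h2.1.mo_apply u
    rw [e]
    exact l2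
  have hj : JoinedIn (P p.1 p.1 (R₁ + ℓ)) (mo fun _ => p.1) (mo (catf R₁ (sg R₁ p.1 p.1) (c p))) :=
    (h3 _ m2 _ m1).mono fun w hw => hw.1
  have H1 := uh_loop (t := t) (fun _ => p'.1) (fun _ _ => by rw [dist_self]; exact dist_nonneg)
    hm ht.le hf hj
  have H2 : UH (fun _ : Unit => PZ h p p' t) (fun _ => P p.1 p'.1 (t + (R₁ + ℓ + (R₁ + ℓ))))
      (fun _ => id) fun _ v => cg (fun _ => p'.1) (R₁ + ℓ) t
        (catf R₁ (sg R₁ (v 0) p.1) (c p)) v :=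
    (H1.mono (fun _ w hw => hw.1) fun _ => subset_rfl).congr (fun _ _ _ => rfl) fun _ v hv => by
      show _ = cg (fun _ => p'.1) (R₁ + ℓ) t (catf R₁ (sg R₁ (v 0) p.1) (c p)) v
      rw [show v 0 = p.1 from eq_left hv.1 le_rfl]
  have H3 := UH.toPZ (h := h) (P₀ := fun _ : Unit => p) (P₁ := fun _ => p')
    (T := fun _ => t + (R₁ + ℓ + (R₁ + ℓ))) H2 fun _ w hw =>
      H971Z.PZ_mono (by linarith) hw
  obtain ⟨δ, hδ, h4⟩ := H892.UH.ctgC H3 r hr
  exact ⟨δ, hδ, h4 ()⟩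

end Vale.Agent.P216.B7893
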